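import Vale.Agent.H7.P050.Lemmas

/-! P050: the Sidorenko inequality for all bipartite `H` and monotone host graphs on lattices. -/

namespace Vale.Agent.Results.P050.LatticeHosts

open Finset Classical Vale.Agent.H7.P050

/-- The bipartite graph on `X ⊕ Y` with `x` adjacent to `y` iff `R x y`. -/
def host {X Y : Type} (R : X → Y → Prop) : SimpleGraph (X ⊕ Y) where
  Adj a b := (∃ x y, a = Sum.inl x ∧ b = Sum.inr y ∧ R x y) ∨
    (∃ x y, b = Sum.inl x ∧ a = Sum.inr y ∧ R x y)
  symm := ⟨by rintro a b (h | h); exacts [Or.inr h, Or.inl h]⟩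
  loopless := ⟨by
    rintro a (⟨x, y, h1, h2, _⟩ | ⟨x, y, h1, h2, _⟩) <;> rw [h1] at h2 <;> simp at h2⟩

/-- homomorphism density -/
noncomputable def t {V W : Type} (H : SimpleGraph V) (G : SimpleGraph W) : ℝ :=
  (Nat.card (H →g G) : ℝ) / (Nat.card W : ℝ) ^ Nat.card V

/-- edge density `2 |E(G)| / |V(G)|^2` -/
noncomputable def p {W : Type} (G : SimpleGraph W) : ℝ :=
  2 * (Nat.card G.edgeSet : ℝ) / (Nat.card W : ℝ) ^ 2

/-- the homomorphism given by a proper colouring and a good pair of maps -/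
def toHom {V X Y : Type} (H : SimpleGraph V) (R : X → Y → Prop) (q : Σ χ : Prp H, Good H R χ.1) :
    H →g host R where
  toFun v := if h : q.1.1 v = true then Sum.inl (q.2.1.1 ⟨v, h⟩)
    else Sum.inr (q.2.1.2 ⟨v, by simpa using h⟩)
  map_rel' := by
    intro u v huv
    have hne := q.1.2 u v huv
    by_cases hu : q.1.1 u = true
    · have hv : q.1.1 v = false := by
        cases hv : q.1.1 v
        · rfl
        · rw [hu, hv] at hne; exact absurd rfl hne
      left
      refine ⟨q.2.1.1 ⟨u, hu⟩, q.2.1.2 ⟨v, hv⟩, by simp [hu], by simp [hv], ?_⟩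
      exact q.2.2 ⟨(⟨u, hu⟩, ⟨v, hv⟩), huv⟩
    · have hu' : q.1.1 u = false := by simpa using hu
      have hv : q.1.1 v = true := by
        cases hv : q.1.1 v
        · rw [hu', hv] at hne; exact absurd rfl hne
        · rfl
      right
      refine ⟨q.2.1.1 ⟨v, hv⟩, q.2.1.2 ⟨u, hu'⟩, by simp [hv], by simp [hu'], ?_⟩
      exact q.2.2 ⟨(⟨v, hv⟩, ⟨u, hu'⟩), huv.symm⟩

theorem toHom_injective {V X Y : Type} (H : SimpleGraph V) (R : X → Y → Prop) :
    Function.Injective (toHom H R) := by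
  rintro ⟨⟨χ, hχ⟩, ⟨⟨x, y⟩, hz⟩⟩ ⟨⟨χ', hχ'⟩, ⟨⟨x', y'⟩, hz'⟩⟩ h
  have h1 : ∀ v, (toHom H R ⟨⟨χ, hχ⟩, ⟨⟨x, y⟩, hz⟩⟩) v =
      (toHom H R ⟨⟨χ', hχ'⟩, ⟨⟨x', y'⟩, hz'⟩⟩) v := fun v => by rw [h]
  have e : ∀ (q : Σ χ : Prp H, Good H R χ.1) (v : V), (toHom H R q) v =
      if h : q.1.1 v = true then Sum.inl (q.2.1.1 ⟨v, h⟩)
      else Sum.inr (q.2.1.2 ⟨v, by simpa using h⟩) := fun q v => rfl
  have hcc : χ = χ' := by
    funext v
    have := h1 v
    rw [e, e] at this
    by_cases a : χ v = true <;> by_cases b : χ' v = true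
    · rw [a, b]
    · simp [a, b] at this
    · simp [a, b] at this
    · rw [Bool.not_eq_true] at a b; rw [a, b]
  subst hcc
  have hx : x = x' := by
    funext v
    have := h1 v.1
    rw [e, e] at this
    have hv := v.2
    rw [dif_pos hv, dif_pos hv] at this
    exact Sum.inl.inj this
  have hy : y = y' := by
    funext v
    have := h1 v.1
    rw [e, e] at this
    have hv : ¬ χ v.1 = true := by
      have h2 : χ v.1 = false := v.2
      rw [h2]; simp
    rw [dif_neg hv, dif_neg hv] at this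
    exact Sum.inr.inj this
  subst hx; subst hy
  rfl

theorem host_edges {X Y : Type} [Fintype X] [Fintype Y] (R : X → Y → Prop) :
    (Nat.card (host R).edgeSet : ℝ) = ∑ x : X, ∑ y : Y, if R x y then (1 : ℝ) else 0 := by
  let F : {q : X × Y // R q.1 q.2} → (host R).edgeSet := fun q =>
    ⟨s(Sum.inl q.1.1, Sum.inr q.1.2), Or.inl ⟨q.1.1, q.1.2, rfl, rfl, q.2⟩⟩
  have hF : Function.Bijective F := by
    constructor
    · rintro ⟨⟨a, b⟩, h⟩ ⟨⟨a', b'⟩, h'⟩ heq
      have heq2 : s((Sum.inl a : X ⊕ Y), Sum.inr b) = s(Sum.inl a', Sum.inr b') :=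
        congrArg Subtype.val heq
      rw [Sym2.eq_iff] at heq2
      rcases heq2 with ⟨h1, h2⟩ | ⟨h1, h2⟩
      · have e1 := Sum.inl.inj h1
        have e2 := Sum.inr.inj h2
        subst e1; subst e2; rfl
      · simp at h1
    · rintro ⟨e, he⟩
      induction e using Sym2.ind with
      | _ u v =>
        have hadj : (host R).Adj u v := he
        rcases hadj with ⟨x, y, hu, hv, hR⟩ | ⟨x, y, hv, hu, hR⟩
        · exact ⟨⟨(x, y), hR⟩, Subtype.ext (by simp [F, hu, hv])⟩
        · exact ⟨⟨(x, y), hR⟩, Subtype.ext (by simp only [F, hu, hv]; exact Sym2.eq_swap)⟩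
  rw [← Nat.card_eq_of_bijective F hF, Nat.card_eq_fintype_card, Fintype.card_subtype,
    Finset.card_eq_sum_ones, Finset.sum_filter]
  push_cast
  rw [Fintype.sum_prod_type]

/-- Let `X`, `Y` be finite nonempty distributive lattices and `R` a relation between `X` and `Y`
which is increasing in both variables.  Then every bipartite graph `H` without isolated vertices
satisfies the Sidorenko inequality in the bipartite graph of `R`. -/
theorem result {X Y : Type} [Finite X] [Finite Y] [Nonempty X] [Nonempty Y]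
    [DistribLattice X] [DistribLattice Y] (R : X → Y → Prop)
    (hR : ∀ x x' y y', x ≤ x' → y ≤ y' → R x y → R x' y')
    {V : Type} [Finite V] (H : SimpleGraph V) (hbip : H.Colorable 2)
    (hiso : ∀ v, ∃ w, H.Adj v w) :
    p (host R) ^ Nat.card H.edgeSet ≤ t H (host R) := by
  have := Fintype.ofFinite X
  have := Fintype.ofFinite Y
  have := Fintype.ofFinite V
  obtain ⟨C⟩ := hbip
  let χ0 : V → Bool := fun v => decide (C v = 0)
  have h0 : ∀ u v, H.Adj u v → χ0 u ≠ χ0 v := by
    intro u v huv h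
    have h1 := C.valid huv
    simp only [χ0, decide_eq_decide] at h
    apply h1
    have h2 : ∀ a b : Fin 2, (a = 0 ↔ b = 0) → a = b := by decide
    exact h2 _ _ h
  set e := Nat.card H.edgeSet with he
  set v := Fintype.card V with hv
  set x : ℝ := (Nat.card X : ℝ) with hxdef
  set y : ℝ := (Nat.card Y : ℝ) with hydef
  have hx : 0 < x := by
    rw [hxdef, Nat.card_eq_fintype_card]; exact_mod_cast Fintype.card_pos
  have hy : 0 < y := by
    rw [hydef, Nat.card_eq_fintype_card]; exact_mod_cast Fintype.card_pos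
  -- v ≤ 2 e
  have hve : v ≤ 2 * e := by
    have h1 := H.sum_degrees_eq_twice_card_edges
    have h2 : e = H.edgeFinset.card := by
      rw [he, Nat.card_eq_fintype_card, SimpleGraph.edgeFinset_card]
    rw [h2, ← h1, hv, ← Finset.card_univ, Finset.card_eq_sum_ones]
    apply Finset.sum_le_sum
    intro u _
    obtain ⟨w, hw⟩ := hiso u
    exact (SimpleGraph.degree_pos_iff_exists_adj H u).mpr ⟨w, hw⟩
  have hd0 : 0 ≤ rdens R := by
    unfold rdens
    apply div_nonneg _ (by positivity)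
    exact Finset.sum_nonneg fun _ _ => Finset.sum_nonneg fun _ _ => by split_ifs <;> simp
  -- number of homomorphisms
  have hfin : Finite (H →g host R) :=
    Finite.of_injective (fun f => (f : V → X ⊕ Y)) DFunLike.coe_injective
  have hN : (∑ χ : Prp H, (Nat.card (Good H R χ.1) : ℝ)) ≤ (Nat.card (H →g host R) : ℝ) := by
    have h1 := Nat.card_le_card_of_injective (toHom H R) (toHom_injective H R)
    rw [Nat.card_sigma] at h1
    exact_mod_cast h1
  have hG : ∀ χ : Prp H, x ^ Nat.card (SA χ.1) * y ^ Nat.card (SB χ.1) * rdens R ^ e ≤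
      (Nat.card (Good H R χ.1) : ℝ) := by
    intro χ
    have h1 := good_ge'' R hR (fun q : PE H χ.1 => q.1.1) (fun q : PE H χ.1 => q.1.2)
    rw [edges_card H χ.1 χ.2] at h1
    exact h1
  set g := Real.sqrt (x * y) with hg
  have hg0 : 0 < g := Real.sqrt_pos.mpr (by positivity)
  have hg2 : g ^ 2 = x * y := Real.sq_sqrt (by positivity)
  have hN2 : (Nat.card (Prp H) : ℝ) * g ^ v * rdens R ^ e ≤ (Nat.card (H →g host R) : ℝ) := by
    refine le_trans ?_ ((Finset.sum_le_sum fun χ _ => hG χ).trans hN)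
    rw [← Finset.sum_mul]
    exact mul_le_mul_of_nonneg_right (weights_ge H x y hx hy) (by positivity)
  have hP : (2 : ℝ) ^ v ≤ (Nat.card (Prp H) : ℝ) * 2 ^ e := by
    have h1 := proper_ge H χ0 h0
    rw [edges_card H χ0 h0] at h1
    exact_mod_cast h1
  have hP2 : (2 : ℝ) ^ v / 2 ^ e ≤ (Nat.card (Prp H) : ℝ) := by
    rw [div_le_iff₀ (by positivity)]; exact hP
  have hN3 : (2 : ℝ) ^ v / 2 ^ e * g ^ v * rdens R ^ e ≤ (Nat.card (H →g host R) : ℝ) := by
    refine le_trans ?_ hN2
    gcongr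
  have hcard : (Nat.card (X ⊕ Y) : ℝ) = x + y := by
    rw [Nat.card_sum]; push_cast; rfl
  have hcardV : Nat.card V = v := Nat.card_eq_fintype_card
  have hE : (Nat.card (host R).edgeSet : ℝ) = rdens R * (x * y) := by
    rw [host_edges, rdens, hxdef, hydef, Nat.card_eq_fintype_card, Nat.card_eq_fintype_card]
    have hX : (Fintype.card X : ℝ) ≠ 0 := by
      rw [hxdef, Nat.card_eq_fintype_card] at hx; exact hx.ne'
    have hY : (Fintype.card Y : ℝ) ≠ 0 := by
      rw [hydef, Nat.card_eq_fintype_card] at hy; exact hy.ne'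
    field_simp
  unfold t p
  rw [hcard, hcardV, hE]
  set n := x + y with hn
  have hn0 : 0 < n := by positivity
  set r := 2 * g / n with hr
  have hr0 : 0 ≤ r := by positivity
  have hr1 : r ≤ 1 := by
    rw [hr, div_le_one hn0, hn]
    nlinarith [sq_nonneg (x - y), hg2]
  have h1 : (2 * (rdens R * (x * y)) / n ^ 2) ^ e = rdens R ^ e * (1 / 2) ^ e * r ^ (2 * e) := by
    rw [pow_mul, ← mul_pow, ← mul_pow]
    congr 1
    rw [hr, div_pow, mul_pow, hg2]
    ring
  have h2 : r ^ (2 * e) ≤ r ^ v := pow_le_pow_of_le_one hr0 hr1 hve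
  rw [h1, le_div_iff₀ (by positivity)]
  refine le_trans ?_ hN3
  have h3 : (2 : ℝ) ^ v / 2 ^ e * g ^ v * rdens R ^ e =
      rdens R ^ e * (1 / 2) ^ e * r ^ v * n ^ v := by
    have h4 : r ^ v * n ^ v = 2 ^ v * g ^ v := by
      rw [← mul_pow, hr, div_mul_cancel₀ _ hn0.ne', mul_pow]
    rw [mul_assoc _ (r ^ v), h4, one_div_pow]
    ring
  rw [h3]
  gcongr

end Vale.Agent.Results.P050.LatticeHosts
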